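import Vale.Agent.P281.H864.TM.Plane

/-!
# P281, project T-M, T0 (helper864): finitely many graphs near a point
-/

open Set Filter Metric
open scoped Topology

noncomputable section

namespace Vale.Agent.P281.H864.TM

/-- **E5** (flat form). -/
theorem graphs {B V : Type*} [NormedAddCommGroup B] [NormedSpace ℂ B] [NormedAddCommGroup V]
    [NormedSpace ℂ V] [FiniteDimensional ℂ V] (hV : 1 < Module.finrank ℂ V) {e t : B × V → ℂ}
    {W Gd : Set (B × V)} {D : Set B} {b₀ : B} {u₀ : V} (hW : IsOpen W) (hw₀ : (b₀, u₀) ∈ W)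
    (he : ∀ w ∈ W, AnalyticAt ℂ e w) (ht : ∀ w ∈ W, ContinuousAt t w)
    (hGd : ∀ w ∈ W, w ∈ Gd → ∃ s : B → ℂ, AnalyticAt ℂ s w.1 ∧
      (∀ᶠ w' in 𝓝 w, e w' = 0 → t w' = s w'.1) ∧
      ∀ N ∈ 𝓝 w, ∀ᶠ b in 𝓝 w.1, ∃ u, (b, u) ∈ N ∧ e (b, u) = 0)
    (hcl : ∀ w ∈ W, e w = 0 → w ∈ closure Gd) (hD : Dense D)
    (hc : ∀ b, b = b₀ ∨ b ∈ D → {u | (b, u) ∈ W ∧ e (b, u) = 0 ∧ (b, u) ∉ Gd}.Countable) :
    ∀ N ∈ 𝓝 (b₀, u₀), ∃ (n : ℕ) (s : Fin n → B → ℂ), (∀ j, AnalyticAt ℂ (s j) b₀) ∧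
      (∀ᶠ w in 𝓝 (b₀, u₀), e w = 0 → ∃ j, t w = s j w.1) ∧
      ∀ j, ∀ᶠ b in 𝓝 b₀, ∃ u, (b, u) ∈ N ∧ e (b, u) = 0 ∧ t (b, u) = s j b := by
  classical
  have : ProperSpace V := FiniteDimensional.proper ℂ V
  intro N hN
  obtain ⟨r₀, hr₀, hb⟩ := Metric.mem_nhds_iff.1 (inter_mem hN (hW.mem_nhds hw₀))
  have hbox : ∀ b ∈ ball b₀ r₀, ∀ u ∈ ball u₀ r₀, (b, u) ∈ N ∧ (b, u) ∈ W := by
    intro b h1 u h2
    refine hb ?_
    rw [mem_ball, Prod.dist_eq, max_lt_iff]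
    exact ⟨h1, h2⟩
  -- the radius
  set N₀ : Set V := {u | (b₀, u) ∈ W ∧ e (b₀, u) = 0 ∧ (b₀, u) ∉ Gd} with hN₀
  have hN₀c : ((fun u => dist u u₀) '' N₀).Countable := (hc b₀ (Or.inl rfl)).image _
  obtain ⟨r, hr, hrN⟩ : ∃ r ∈ Ioo 0 r₀, r ∉ (fun u => dist u u₀) '' N₀ := by
    by_contra hcon
    push Not at hcon
    have h1 : (Ioo 0 r₀).Countable := hN₀c.mono hcon
    have h2 := h1.measure_zero MeasureTheory.volume
    rw [Real.volume_Ioo, sub_zero, ENNReal.ofReal_eq_zero] at h2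
    linarith
  have hr0 : 0 < r := hr.1
  have hcb : closedBall u₀ r ⊆ ball u₀ r₀ := closedBall_subset_ball hr.2
  have hbr : ∀ b ∈ ball b₀ r₀, ∀ u ∈ closedBall u₀ r, (b, u) ∈ N ∧ (b, u) ∈ W := fun b h1 u h2 =>
    hbox b h1 u (hcb h2)
  have hgood : ∀ u ∈ sphere u₀ r, e (b₀, u) = 0 → (b₀, u) ∈ Gd := by
    intro u hu h0
    by_contra h1
    exact hrN ⟨u, ⟨(hbr b₀ (mem_ball_self hr₀) u (sphere_subset_closedBall hu)).2, h0, h1⟩, hu⟩
  -- the graphs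
  have hex : ∀ u : V, ∃ s : B → ℂ, u ∈ sphere u₀ r → e (b₀, u) = 0 → AnalyticAt ℂ s b₀ ∧
      (∀ᶠ w' in 𝓝 (b₀, u), e w' = 0 → t w' = s w'.1) ∧
      ∀ N ∈ 𝓝 (b₀, u), ∀ᶠ b in 𝓝 b₀, ∃ u, (b, u) ∈ N ∧ e (b, u) = 0 := by
    intro u
    by_cases h1 : u ∈ sphere u₀ r ∧ e (b₀, u) = 0
    · obtain ⟨s, h2, h3, h4⟩ := hGd (b₀, u)
        (hbr b₀ (mem_ball_self hr₀) u (sphere_subset_closedBall h1.1)).2 (hgood u h1.1 h1.2)
      exact ⟨s, fun _ _ => ⟨h2, h3, h4⟩⟩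
    · exact ⟨fun _ => 0, fun h2 h3 => absurd ⟨h2, h3⟩ h1⟩
  choose s hs using hex
  have hcsl : ∀ b : B, Continuous fun u : V => (b, u) := fun b => by fun_prop
  set S₀ : Set V := {u | u ∈ sphere u₀ r ∧ e (b₀, u) = 0} with hS₀
  have hS₀c : IsCompact S₀ := by
    refine (isCompact_sphere u₀ r).of_isClosed_subset ?_ fun u hu => hu.1
    have h1 : ContinuousOn (fun u => e (b₀, u)) (sphere u₀ r) := fun u hu =>
      (ContinuousAt.comp (g := e) (f := fun u : V => (b₀, u))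
        (he _ (hbr b₀ (mem_ball_self hr₀) u (sphere_subset_closedBall hu)).2).continuousAt
        (hcsl b₀).continuousAt).continuousWithinAt
    exact h1.preimage_isClosed_of_isClosed isClosed_sphere (isClosed_singleton (x := (0 : ℂ)))
  obtain ⟨T, hTS, hTc⟩ := hS₀c.elim_nhds_subcover
    (fun j => {u | ∀ᶠ w' in 𝓝 (b₀, u), e w' = 0 → t w' = s j w'.1}) (by
      intro j hj
      have h1 := eventually_eventually_nhds.2 (hs j hj.1 hj.2).2.1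
      exact (hcsl b₀).continuousAt.eventually h1)
  have hTs : ∀ j ∈ T, AnalyticAt ℂ (s j) b₀ := fun j hj => (hs j (hTS j hj).1 (hTS j hj).2).1
  -- the sphere
  have hsph : ∀ᶠ b in 𝓝 b₀, ∀ u ∈ sphere u₀ r, e (b, u) = 0 →
      ∃ j ∈ T, ∀ᶠ w' in 𝓝 (b, u), e w' = 0 → t w' = s j w'.1 := by
    refine (isCompact_sphere u₀ r).eventually_forall_of_forall_eventually fun u hu => ?_
    by_cases h0 : e (b₀, u) = 0
    · have h1 : u ∈ S₀ := ⟨hu, h0⟩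
      obtain ⟨j, hj, hju⟩ := mem_iUnion₂.1 (hTc h1)
      have h2 : ∀ᶠ w' in 𝓝 (b₀, u), e w' = 0 → t w' = s j w'.1 := hju
      filter_upwards [eventually_eventually_nhds.2 h2] with w hw _
      exact ⟨j, hj, hw⟩
    · filter_upwards [(he _ (hbr b₀ (mem_ball_self hr₀) u
        (sphere_subset_closedBall hu)).2).continuousAt.eventually_ne h0] with w hw hw0
      exact absurd hw0 hw
  have han : ∀ᶠ b in 𝓝 b₀, ∀ j ∈ T, AnalyticAt ℂ (s j) b :=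
    (Finset.eventually_all T).2 fun j hj => (hTs j hj).eventually_analyticAt
  obtain ⟨δ, hδ, hδb⟩ := Metric.eventually_nhds_iff_ball.1
    (hsph.and (han.and (ball_mem_nhds b₀ hr₀)))
  -- very general `b`
  have hgen : ∀ b ∈ ball b₀ δ, b ∈ D → ∀ u ∈ ball u₀ r, e (b, u) = 0 → ∃ j ∈ T, t (b, u) = s j b := by
    intro b hb1 hbD u hu h0
    obtain ⟨h1, -, h2⟩ := hδb b hb1
    set Nb : Set V := {u | (b, u) ∈ W ∧ e (b, u) = 0 ∧
      ¬ ∀ᶠ u' in 𝓝 u, e (b, u') = 0 → t (b, u') = t (b, u)} with hNb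
    have hNbc : Nb.Countable := by
      refine (hc b (Or.inr hbD)).mono ?_
      rintro u' ⟨h3, h4, h5⟩
      refine ⟨h3, h4, fun h6 => h5 ?_⟩
      obtain ⟨s', -, h7, -⟩ := hGd _ h3 h6
      filter_upwards [(hcsl b).continuousAt.eventually h7] with v h8 h9
      have h10 := h7.self_of_nhds h4
      exact (h8 h9).trans h10.symm
    obtain ⟨y, hy, hy0, hyt⟩ := on_sphere hV (e := fun u => e (b, u)) (t := fun u => t (b, u))
      (a := u₀) (r := r) (N := Nb)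
      (fun y hy => AnalyticAt.fun_comp (he _ (hbr b h2 y hy).2)
        (analyticAt_const.prod analyticAt_id))
      (fun y hy => ContinuousAt.comp (g := t) (f := fun u : V => (b, u)) (ht _ (hbr b h2 y hy).2)
        (hcsl b).continuousAt) hNbc
      (by
        rintro y hy ⟨-, h4, h5⟩
        obtain ⟨j, hj, h6⟩ := h1 y hy h4
        apply h5
        filter_upwards [(hcsl b).continuousAt.eventually h6] with v h8 h9
        have h10 := h6.self_of_nhds h4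
        exact (h8 h9).trans h10.symm)
      (by
        intro y hy h4 h5
        by_contra h6
        exact h5 ⟨(hbr b h2 y hy).2, h4, h6⟩) u hu h0
    obtain ⟨j, hj, h6⟩ := h1 y hy hy0
    refine ⟨j, hj, ?_⟩
    have h7 := h6.self_of_nhds hy0
    exact hyt.symm.trans h7
  have hO : ball b₀ δ ×ˢ ball u₀ r ∈ 𝓝 (b₀, u₀) :=
    prod_mem_nhds (ball_mem_nhds b₀ hδ) (ball_mem_nhds u₀ hr0)
  have hall : ∀ w ∈ ball b₀ δ ×ˢ ball u₀ r, e w = 0 → ∏ j ∈ T, (t w - s j w.1) = 0 := by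
    rintro w ⟨hw1, hw2⟩ h0
    by_contra hne
    obtain ⟨h1, h2, h3⟩ := hδb w.1 hw1
    have hwW : w ∈ W := (hbr w.1 h3 w.2 (ball_subset_closedBall hw2)).2
    have hcΦ : ContinuousAt (fun w : B × V => ∏ j ∈ T, (t w - s j w.1)) w := by
      refine tendsto_finsetProd T fun j hj => ?_
      exact (ht w hwW).sub (ContinuousAt.comp (g := s j) (f := Prod.fst)
        (h2 j hj).continuousAt continuousAt_fst)
    have h4 : ∀ᶠ w' in 𝓝 w, ∏ j ∈ T, (t w' - s j w'.1) ≠ 0 := hcΦ.eventually_ne hne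
    have hOo : IsOpen (ball b₀ δ ×ˢ ball u₀ r) := isOpen_ball.prod isOpen_ball
    have h5 := h4.and ((hOo.eventually_mem ⟨hw1, hw2⟩).and (hW.eventually_mem hwW))
    obtain ⟨O', hO', hO'o, hwO'⟩ := _root_.eventually_nhds_iff.1 h5
    obtain ⟨g, hgO, hgG⟩ := mem_closure_iff.1 (hcl w hwW h0) O' hO'o hwO'
    obtain ⟨-, -, -, h6⟩ := hGd g (hO' g hgO).2.2 hgG
    obtain ⟨b, hbD, u, hbu, hbe⟩ := ((mem_closure_iff_frequently.1 (hD g.1)).and_eventually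
      (h6 O' (hO'o.mem_nhds hgO))).exists
    obtain ⟨h7, ⟨h8, h9⟩, -⟩ := hO' _ hbu
    obtain ⟨j, hj, hjt⟩ := hgen b h8 hbD u h9 hbe
    apply h7
    refine Finset.prod_eq_zero hj ?_
    show t (b, u) - s j b = 0
    rw [hjt, sub_self]
  refine ⟨T.card, fun j => s (T.equivFin.symm j), fun j => hTs _ (T.equivFin.symm j).2, ?_, ?_⟩
  · filter_upwards [hO] with w hw h0
    obtain ⟨j, hj, hj0⟩ := Finset.prod_eq_zero_iff.1 (hall w hw h0)
    refine ⟨T.equivFin ⟨j, hj⟩, ?_⟩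
    rw [Equiv.symm_apply_apply]
    exact sub_eq_zero.1 hj0
  · intro j
    set j' : V := ((T.equivFin.symm j : T) : V) with hj'
    have hjT : j' ∈ T := (T.equivFin.symm j).2
    obtain ⟨h1, h2, h3⟩ := hs j' (hTS j' hjT).1 (hTS j' hjT).2
    have h4 : N ∩ {w | e w = 0 → t w = s j' w.1} ∈ 𝓝 (b₀, j') := by
      refine inter_mem ?_ h2
      have h5 : (b₀, j') ∈ ball b₀ r₀ ×ˢ ball u₀ r₀ :=
        ⟨mem_ball_self hr₀, hcb (sphere_subset_closedBall (hTS j' hjT).1)⟩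
      refine mem_of_superset ((isOpen_ball.prod isOpen_ball).mem_nhds h5) ?_
      rintro ⟨b, u⟩ ⟨h6, h7⟩
      exact (hbox b h6 u h7).1
    filter_upwards [h3 _ h4] with b hb1
    obtain ⟨u, ⟨h5, h6⟩, h7⟩ := hb1
    exact ⟨u, h5, h7, h6 h7⟩

end Vale.Agent.P281.H864.TM
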