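import Vale.Agent.P281.H180.TM.ESpec
import Vale.Agent.P281.H864.TM.Graphs
import Vale.Agent.P281.H64.Thin.Core

/-!
# P281, project T-M, T0 (helper864): E5, finitely many graphs near a point
-/

open Set Filter Metric Vale.Agent.P281 Vale.Agent.P281.H713 Vale.Agent.P281.H64
open Vale.Agent.P281.H180.TM (Loc VG GraphStmt LocStmt)
open Vale.Agent.P281.H150.Gen (SThin)
open scoped Topology ContDiff Manifold

noncomputable section

namespace Vale.Agent.P281.H864.TM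

section

variable {V W : Type} [NormedAddCommGroup V] [NormedSpace ℂ V] [FiniteDimensional ℂ V]
  [NormedAddCommGroup W] [NormedSpace ℂ W] [FiniteDimensional ℂ W]

/-- Straightening a submersion (the text of helper737). -/
theorem exists_str {F : V → W} {z : V} (hF : AnalyticAt ℂ F z)
    (hs : Function.Surjective (fderiv ℂ F z)) :
    ∃ (κ : V →L[ℂ] LinearMap.ker (fderiv ℂ F z : V →ₗ[ℂ] W))
      (R : W × LinearMap.ker (fderiv ℂ F z : V →ₗ[ℂ] W) → V),
      AnalyticAt ℂ R (F z, κ z) ∧ R (F z, κ z) = z ∧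
      (∀ᶠ q in 𝓝 (F z, κ z), F (R q) = q.1 ∧ κ (R q) = q.2) ∧
      ∀ᶠ x in 𝓝 z, R (F x, κ x) = x := by
  have : CompleteSpace V := FiniteDimensional.complete ℂ V
  set L := fderiv ℂ F z with hL
  have hcl : (LinearMap.ker (L : V →ₗ[ℂ] W)).ClosedComplemented :=
    Submodule.ClosedComplemented.of_finiteDimensional_quotient L.isClosed_ker
  obtain ⟨κ, hκ⟩ := hcl
  set G : V → W × LinearMap.ker (L : V →ₗ[ℂ] W) := fun x => (F x, κ x) with hG
  have hGa : AnalyticAt ℂ G z := hF.prod (κ.analyticAt z)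
  have hGc : ContDiffAt ℂ ω G z := hGa.contDiffAt
  have hGd : HasFDerivAt G (L.prod κ) z := hF.differentiableAt.hasFDerivAt.prodMk κ.hasFDerivAt
  have hbij : Function.Bijective
      ((L.prod κ : V →L[ℂ] (W × LinearMap.ker (L : V →ₗ[ℂ] W))) :
        V →ₗ[ℂ] (W × LinearMap.ker (L : V →ₗ[ℂ] W))) := by
    constructor
    · rw [injective_iff_map_eq_zero]
      intro v hv
      have hv1 : L v = 0 := (Prod.mk.inj hv).1
      have hv2 : κ v = 0 := (Prod.mk.inj hv).2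
      have h3 := hκ ⟨v, by simpa using hv1⟩
      simp only [hv2] at h3
      exact (congrArg Subtype.val h3).symm
    · rintro ⟨w, k⟩
      obtain ⟨v₀, hv₀⟩ := hs w
      refine ⟨v₀ + ((k : V) - (κ v₀ : V)), ?_⟩
      have hk1 : L (k : V) = 0 := by simp
      have hk2 : L (κ v₀ : V) = 0 := by simp
      refine Prod.ext ?_ ?_
      · show L (v₀ + ((k : V) - (κ v₀ : V))) = w
        rw [map_add, map_sub, hk1, hk2, hv₀]; simp
      · show κ (v₀ + ((k : V) - (κ v₀ : V))) = k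
        rw [map_add, map_sub, hκ, hκ]; simp
  let e : V ≃L[ℂ] (W × LinearMap.ker (L : V →ₗ[ℂ] W)) :=
    (LinearEquiv.ofBijective _ hbij).toContinuousLinearEquiv
  have he : (e : V →L[ℂ] (W × LinearMap.ker (L : V →ₗ[ℂ] W))) = L.prod κ := by ext v <;> rfl
  have hGd' : HasFDerivAt G (e : V →L[ℂ] (W × LinearMap.ker (L : V →ₗ[ℂ] W))) z := by
    rw [he]; exact hGd
  have hn : (ω : WithTop ℕ∞) ≠ 0 := by simp
  set R := hGc.localInverse hGd' hn with hR
  have hRc : ContDiffAt ℂ ω R (G z) := hGc.to_localInverse hGd' hn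
  have hstr : HasStrictFDerivAt G (e : V →L[ℂ] (W × LinearMap.ker (L : V →ₗ[ℂ] W))) z :=
    hGc.hasStrictFDerivAt' hGd' hn
  have hRr : ∀ᶠ w in 𝓝 (G z), G (R w) = w := hstr.eventually_right_inverse
  have hRl : ∀ᶠ v in 𝓝 z, R (G v) = v := hstr.eventually_left_inverse
  have hR0 : R (G z) = z := hGc.localInverse_apply_image hGd' hn
  refine ⟨κ, R, ContDiffAt.analyticAt hRc, hR0, ?_, hRl⟩
  filter_upwards [hRr] with q hq
  exact ⟨congrArg Prod.fst hq, congrArg Prod.snd hq⟩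


end

theorem dense_compl_sthin {q : ℕ} {S : Set (Cm q)} (hS : SThin (Cm q) S) : Dense Sᶜ := by
  obtain ⟨H, hH, hSH⟩ := hS
  have h1 : Dense (⋂ k, (H k)ᶜ) := dense_iInter_of_isOpen_nat (fun k => (hH k).1.isOpen_compl)
    fun k => H64.Thin.IsThinSet.dense_compl (hH k)
  refine h1.mono fun y hy hyS => ?_
  obtain ⟨k, hk⟩ := mem_iUnion.1 (hSH hyS)
  exact mem_iInter.1 hy k hk

/-- **E5** -/
theorem loc (graph : GraphStmt) : LocStmt := by
  intro q X _ _ _ _ _ D U f t S hL hS x hxU hxD hxS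
  classical
  set φ := chartAt (Cm (q + 1 + 1)) x with hφ
  have hx : x ∈ φ.source := mem_chart_source _ x
  have hfx : HolV (Cm (q + 1 + 1)) f x := (hL.hol x hxU).1
  set F : Cm (q + 1 + 1) → Cm q := f ∘ φ.symm with hFdef
  have hF : AnalyticAt ℂ F (φ x) := (HolV.rep hx hfx).analyticAt
  have hF0 : F (φ x) = f x := by
    show f (φ.symm (φ x)) = f x
    rw [φ.left_inv hx]
  have hFs : Function.Surjective (fderiv ℂ F (φ x)) := by
    intro y
    obtain ⟨ξ, hξ⟩ := hS.sub x hxU hxS y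
    refine ⟨dV (Cm (q + 1 + 1)) (φ : X → Cm (q + 1 + 1)) x ξ, ?_⟩
    rw [dV_eq_chart hx hfx] at hξ
    exact hξ
  obtain ⟨κ, R, hRa, hR0, hRr, hRl⟩ := exists_str hF hFs
  have hdim : 1 < Module.finrank ℂ (LinearMap.ker (fderiv ℂ F (φ x) : Cm (q + 1 + 1) →ₗ[ℂ] Cm q)) := by
    have h1 := LinearMap.finrank_range_add_finrank_ker
      (fderiv ℂ F (φ x) : Cm (q + 1 + 1) →ₗ[ℂ] Cm q)
    have h2 : LinearMap.range (fderiv ℂ F (φ x) : Cm (q + 1 + 1) →ₗ[ℂ] Cm q) = ⊤ :=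
      LinearMap.range_eq_top.2 hFs
    rw [h2, finrank_top, Module.finrank_fin_fun, Module.finrank_fin_fun] at h1
    omega
  obtain ⟨g, V₁, hV₁o, hxV₁, hg1, hg2, -⟩ := hL.eq x
  -- the open sets
  have hO : ∀ᶠ y in 𝓝 (φ x), R (F y, κ y) = y ∧ y ∈ φ.target ∧ φ.symm y ∈ V₁ ∩ U := by
    have h1 : ContinuousAt φ.symm (φ x) := φ.continuousAt_symm (φ.map_source hx)
    have h2 : V₁ ∩ U ∈ 𝓝 (φ.symm (φ x)) := by
      rw [φ.left_inv hx]
      exact (hV₁o.inter hL.opn).mem_nhds ⟨hxV₁, hxU⟩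
    filter_upwards [hRl, φ.open_target.mem_nhds (φ.map_source hx), h1.eventually h2] with y h3 h4 h5
    exact ⟨h3, h4, h5⟩
  obtain ⟨O, hO, hOo, hxO⟩ := _root_.eventually_nhds_iff.1 hO
  have hWev : ∀ᶠ w in 𝓝 (F (φ x), κ (φ x)), (F (R w) = w.1 ∧ κ (R w) = w.2) ∧
      AnalyticAt ℂ R w ∧ R w ∈ O := by
    have h1 : O ∈ 𝓝 (R (F (φ x), κ (φ x))) := by
      rw [hR0]
      exact hOo.mem_nhds hxO
    exact hRr.and (hRa.eventually_analyticAt.and (hRa.continuousAt.eventually h1))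
  obtain ⟨W, hW, hWo, hw₀⟩ := _root_.eventually_nhds_iff.1 hWev
  set P : Cm q × LinearMap.ker (fderiv ℂ F (φ x) : Cm (q + 1 + 1) →ₗ[ℂ] Cm q) → X :=
    fun w => φ.symm (R w) with hP
  set Q : X → Cm q × LinearMap.ker (fderiv ℂ F (φ x) : Cm (q + 1 + 1) →ₗ[ℂ] Cm q) :=
    fun y => (f y, κ (φ y)) with hQ
  have hPt : ∀ w ∈ W, R w ∈ φ.target := fun w hw => (hO _ (hW w hw).2.2).2.1
  have hPs : ∀ w ∈ W, P w ∈ φ.source := fun w hw => φ.map_target (hPt w hw)
  have hPV : ∀ w ∈ W, P w ∈ V₁ := fun w hw => (hO _ (hW w hw).2.2).2.2.1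
  have hPU : ∀ w ∈ W, P w ∈ U := fun w hw => (hO _ (hW w hw).2.2).2.2.2
  have hφP : ∀ w ∈ W, φ (P w) = R w := fun w hw => φ.right_inv (hPt w hw)
  have hfP : ∀ w ∈ W, f (P w) = w.1 := fun w hw => (hW w hw).1.1
  have hQP : ∀ w ∈ W, Q (P w) = w := by
    intro w hw
    refine Prod.ext (hfP w hw) ?_
    show κ (φ (P w)) = w.2
    rw [hφP w hw]
    exact (hW w hw).1.2
  have hPc : ∀ w ∈ W, ContinuousAt P w := by
    intro w hw
    exact ContinuousAt.comp (g := φ.symm) (f := R) (φ.continuousAt_symm (hPt w hw))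
      (hW w hw).2.1.continuousAt
  have hPQ : ∀ y ∈ φ.source, φ y ∈ O → P (Q y) = y := by
    intro y hy hyO
    show φ.symm (R (f y, κ (φ y))) = y
    have h1 := (hO _ hyO).1
    have h2 : F (φ y) = f y := by
      show f (φ.symm (φ y)) = f y
      rw [φ.left_inv hy]
    rw [h2] at h1
    rw [h1, φ.left_inv hy]
  have hQc : ∀ y ∈ φ.source, y ∈ U → ContinuousAt Q y := by
    intro y hy hyU
    exact (hL.hol y hyU).1.continuousAt.prodMk
      (ContinuousAt.comp (g := κ) (f := φ) κ.continuous.continuousAt (φ.continuousAt hy))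
  have hPQe : ∀ w ∈ W, ∀ᶠ y in 𝓝 (P w), P (Q y) = y := by
    intro w hw
    have h1 : ∀ᶠ y in 𝓝 (P w), φ y ∈ O := by
      refine (φ.continuousAt (hPs w hw)).eventually (hOo.mem_nhds ?_)
      rw [hφP w hw]
      exact (hW w hw).2.2
    filter_upwards [h1, φ.open_source.mem_nhds (hPs w hw)] with y h2 h3
    exact hPQ y h3 h2
  have hQt : ∀ w ∈ W, Tendsto Q (𝓝 (P w)) (𝓝 w) := by
    intro w hw
    have h1 := (hQc (P w) (hPs w hw) (hPU w hw)).tendsto
    rwa [hQP w hw] at h1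
  have hbS : ∀ b, b = F (φ x) ∨ b ∈ Sᶜ → b ∉ S := by
    rintro b (rfl | h1)
    · rw [hF0]
      exact hxS
    · exact h1
  obtain ⟨n, s, hs1, hs2, hs3⟩ := graphs hdim (e := fun w => g (P w)) (t := fun w => t (P w))
    (W := W) (Gd := {w | H180.TM.Gd D f (P w)}) (D := Sᶜ) (b₀ := F (φ x)) (u₀ := κ (φ x)) hWo hw₀
    (by
      intro w hw
      have h1 := (HolV.rep (hPs w hw) (hg1 (P w) (hPV w hw) : HolV (Cm (q + 1 + 1)) g _)).analyticAt
      rw [← hφ, hφP w hw] at h1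
      exact AnalyticAt.fun_comp (g := g ∘ φ.symm) (f := R) h1 (hW w hw).2.1)
    (by
      intro w hw
      exact ContinuousAt.comp (g := t) (f := P) (hL.hol _ (hPU w hw)).2.continuousAt (hPc w hw))
    (by
      intro w hw hwG
      obtain ⟨τ, s', hτ, h1, h2, h3⟩ := graph q X D U f t hL (P w) (hPU w hw) hwG
      rw [hfP w hw] at hτ h2 h3
      refine ⟨τ, hτ, ?_, fun N hN => ?_⟩
      · filter_upwards [(hPc w hw).eventually h1, hWo.mem_nhds hw] with w' h4 h5 h6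
        rw [h4 ((hg2 _ (hPV w' h5)).2 h6), hfP w' h5]
      · have h4 : ∀ᶠ y in 𝓝 (P w), Q y ∈ N ∧ P (Q y) = y ∧ y ∈ V₁ :=
          ((hQt w hw).eventually hN).and ((hPQe w hw).and (hV₁o.mem_nhds (hPV w hw)))
        filter_upwards [h2.eventually h4, h3] with b h5 h6
        refine ⟨κ (φ (s' b)), ?_, ?_⟩
        · have h7 : Q (s' b) = (b, κ (φ (s' b))) := Prod.ext h6.2 rfl
          rw [← h7]
          exact h5.1
        · have h7 : Q (s' b) = (b, κ (φ (s' b))) := Prod.ext h6.2 rfl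
          show g (P (b, κ (φ (s' b)))) = 0
          rw [← h7, h5.2.1]
          exact (hg2 _ h5.2.2).1 h6.1)
    (by
      intro w hw h0
      have h1 := hL.dense (P w) (hPU w hw) ((hg2 _ (hPV w hw)).2 h0)
      rw [mem_closure_iff_frequently] at h1 ⊢
      have h2 : ∃ᶠ y in 𝓝 (P w), H180.TM.Gd D f (P (Q y)) :=
        (h1.and_eventually (hPQe w hw)).mono fun y hy => by
          rw [hy.2]
          exact hy.1
      exact (hQt w hw).frequently h2)
    (dense_compl_sthin hS.thin)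
    (by
      intro b hb
      refine MapsTo.countable_of_injOn (f := fun u => P (b, u)) (t := {x | x ∈ D ∧ x ∈ U ∧ f x = b ∧
        ¬ H180.TM.Gd D f x}) ?_ ?_ (hS.cnt b (hbS b hb))
      · rintro u ⟨h1, h2, h3⟩
        exact ⟨(hg2 _ (hPV _ h1)).2 h2, hPU _ h1, hfP _ h1, h3⟩
      · rintro u ⟨h1, -, -⟩ u' ⟨h2, -, -⟩ h3
        have h4 := hQP _ h1
        have h5 := hQP _ h2
        have h6 : P (b, u) = P (b, u') := h3
        rw [h6, h5] at h4
        exact (congrArg Prod.snd h4).symm) W (hWo.mem_nhds hw₀)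
  have hP0 : P (F (φ x), κ (φ x)) = x := by
    show φ.symm (R (F (φ x), κ (φ x))) = x
    rw [hR0, φ.left_inv hx]
  refine ⟨Finset.univ.image s, ?_, ?_⟩
  · intro τ hτ
    obtain ⟨j, -, rfl⟩ := Finset.mem_image.1 hτ
    rw [← hF0]
    refine ⟨hs1 j, ?_⟩
    filter_upwards [hs3 j] with b hb
    obtain ⟨u, h1, h2, h3⟩ := hb
    exact ⟨P (b, u), (hg2 _ (hPV _ h1)).2 h2, hPU _ h1, hfP _ h1, h3⟩
  · have h1 := (hQt _ hw₀).eventually hs2
    have h2 := hPQe _ hw₀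
    rw [hP0] at h1 h2
    filter_upwards [h1, h2, hV₁o.mem_nhds hxV₁] with z h3 h4 h5 h6
    obtain ⟨j, hj⟩ := h3 (by
      rw [h4]
      exact (hg2 z h5).1 h6)
    rw [h4] at hj
    exact ⟨s j, Finset.mem_image_of_mem s (Finset.mem_univ j), hj⟩

end Vale.Agent.P281.H864.TM
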