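import Vale.Agent.P281.H406.TM.Line
import Mathlib.Analysis.Normed.Module.HahnBanach
import Mathlib.Analysis.LocallyConvex.SeparatingDual
import Mathlib.Topology.Baire.Lemmas
import Mathlib.Topology.Baire.LocallyCompactRegular
import Mathlib.LinearAlgebra.FreeModule.Finite.Basic

/-!
# P281, project T-M, T0 (helper864): plane curves, values on the sphere
-/

open Set Filter Metric
open scoped Topology

noncomputable section

namespace Vale.Agent.P281.H864.TM

open Vale.Agent.P281.H406.TM (ln ln_zero analyticAt_ln continuous_ln exists_zero)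

variable {V : Type*} [NormedAddCommGroup V] [NormedSpace ℂ V]

theorem continuous_ln2 (v : V) : Continuous fun q : V × ℂ => ln q.1 v q.2 := by
  unfold ln
  fun_prop

/-- Hurwitz -/
theorem zero_near {e : V → ℂ} {y v : V} (he : AnalyticAt ℂ e y) (h0 : e y = 0)
    (hv : ¬ ∀ᶠ s in 𝓝 (0 : ℂ), e (ln y v s) = 0) {O : Set V} (hO : O ∈ 𝓝 y) :
    ∀ᶠ z in 𝓝 y, ∃ s : ℂ, e (ln z v s) = 0 ∧ ln z v s ∈ O := by
  have h1 : AnalyticAt ℂ (fun s => e (ln y v s)) 0 := by
    refine AnalyticAt.fun_comp ?_ (analyticAt_ln y v 0)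
    rw [ln_zero]
    exact he
  have h2 : ∀ᶠ s in 𝓝[≠] (0 : ℂ), e (ln y v s) ≠ 0 :=
    h1.eventually_eq_zero_or_eventually_ne_zero.resolve_left hv
  have h3 : ∀ᶠ q : V × ℂ in 𝓝 (y, (0 : ℂ)), AnalyticAt ℂ e (ln q.1 v q.2) ∧ ln q.1 v q.2 ∈ O := by
    have h4 := (continuous_ln2 v).tendsto (y, (0 : ℂ))
    simp only [ln_zero] at h4
    exact h4.eventually (he.eventually_analyticAt.and hO)
  obtain ⟨δ, hδ, h4⟩ := Metric.eventually_nhds_iff_ball.1 h3
  rw [eventually_nhdsWithin_iff] at h2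
  obtain ⟨δ', hδ', h5⟩ := Metric.eventually_nhds_iff_ball.1 h2
  set ρ : ℝ := min δ δ' / 2 with hρ
  have hρ0 : 0 < ρ := by positivity
  have hρ1 : ρ < δ := by
    have := min_le_left δ δ'
    rw [hρ]
    linarith
  have hρ2 : ρ < δ' := by
    have := min_le_right δ δ'
    rw [hρ]
    linarith
  have h6 : ∀ z ∈ ball y δ, ∀ s ∈ closedBall (0 : ℂ) ρ, AnalyticAt ℂ e (ln z v s) ∧ ln z v s ∈ O := by
    intro z hz s hs
    refine h4 (z, s) ?_
    rw [mem_ball, Prod.dist_eq, max_lt_iff]
    exact ⟨hz, (mem_closedBall.1 hs).trans_lt hρ1⟩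
  have hne : ∀ s ∈ sphere (0 : ℂ) ρ, e (ln y v s) ≠ 0 := by
    intro s hs
    rw [mem_sphere_zero_iff_norm] at hs
    refine h5 s ?_ ?_
    · rw [mem_ball_zero_iff, hs]
      exact hρ2
    · intro h
      rw [mem_singleton_iff] at h
      rw [h, norm_zero] at hs
      exact hρ0.ne hs
  -- a lower bound on the circle
  have hcy : ContinuousOn (fun s => ‖e (ln y v s)‖) (sphere (0 : ℂ) ρ) := by
    intro s hs
    have h7 := (h6 y (mem_ball_self hδ) s (sphere_subset_closedBall hs)).1
    exact (ContinuousAt.comp (g := e) (f := ln y v) h7.continuousAt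
      (continuous_ln y v).continuousAt).norm.continuousWithinAt
  have hsne : (sphere (0 : ℂ) ρ).Nonempty := NormedSpace.sphere_nonempty.2 hρ0.le
  obtain ⟨s₀, hs₀, hmin⟩ := (isCompact_sphere (0 : ℂ) ρ).exists_isMinOn hsne hcy
  set m : ℝ := ‖e (ln y v s₀)‖ / 2 with hm
  have hm0 : 0 < m := by
    have := norm_pos_iff.2 (hne s₀ hs₀)
    positivity
  have h8 : ∀ᶠ z in 𝓝 y, ∀ s ∈ sphere (0 : ℂ) ρ, m < ‖e (ln z v s)‖ := by
    refine (isCompact_sphere (0 : ℂ) ρ).eventually_forall_of_forall_eventually fun s hs => ?_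
    have h9 := (h6 y (mem_ball_self hδ) s (sphere_subset_closedBall hs)).1
    have h10 : ContinuousAt (fun q : V × ℂ => ‖e (ln q.1 v q.2)‖) (y, s) :=
      (ContinuousAt.comp (g := e) (f := fun q : V × ℂ => ln q.1 v q.2) h9.continuousAt
        (continuous_ln2 v).continuousAt).norm
    refine h10.eventually_const_lt ?_
    have h11 : ‖e (ln y v s₀)‖ ≤ ‖e (ln y v s)‖ := hmin hs
    have h12 := norm_pos_iff.2 (hne s₀ hs₀)
    show m < ‖e (ln y v s)‖
    rw [hm]
    linarith
  have h9 : ∀ᶠ z in 𝓝 y, ‖e z‖ < m := by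
    refine he.continuousAt.norm.eventually_lt_const ?_
    show ‖e y‖ < m
    rw [h0, norm_zero]
    exact hm0
  filter_upwards [h8, h9, ball_mem_nhds y hδ] with z h10 h11 hz
  have hcl : closure (ball (0 : ℂ) ρ) = closedBall 0 ρ := closure_ball 0 hρ0.ne'
  have hd : DiffContOnCl ℂ (fun s => e (ln z v s)) (ball 0 ρ) := by
    refine DifferentiableOn.diffContOnCl fun s hs => ?_
    rw [hcl] at hs
    exact ((AnalyticAt.fun_comp (h6 z hz s hs).1 (analyticAt_ln z v s)).differentiableAt
      ).differentiableWithinAt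
  obtain ⟨s, hs, hs0⟩ := exists_zero hρ0 hd (m := m) (by simpa only [ln_zero] using h11)
    fun s hs => (h10 s hs).le
  exact ⟨s, hs0, (h6 z hz s hs).2⟩

/-- **E1**: the zero set of a holomorphic function has no non-empty compact open piece. -/
theorem no_piece [FiniteDimensional ℂ V] (hV : 1 < Module.finrank ℂ V) {e : V → ℂ} {A : Set V}
    (hA : IsCompact A) (he : ∀ y ∈ A, AnalyticAt ℂ e y) (h0 : ∀ y ∈ A, e y = 0)
    (hop : ∀ y ∈ A, ∀ᶠ z in 𝓝 y, e z = 0 → z ∈ A) : A = ∅ := by
  by_contra hcon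
  have hne : A.Nonempty := nonempty_iff_ne_empty.2 hcon
  -- a linear form with a kernel
  have : Nontrivial V := Module.nontrivial_of_finrank_pos (R := ℂ) (by omega)
  obtain ⟨u, hu⟩ := exists_ne (0 : V)
  obtain ⟨lam, hlam⟩ : ∃ lam : V →L[ℂ] ℂ, lam u = 1 := SeparatingDual.exists_eq_one hu
  obtain ⟨v, hv0, hv⟩ : ∃ v : V, v ≠ 0 ∧ lam v = 0 := by
    have h1 : LinearMap.ker (lam : V →ₗ[ℂ] ℂ) ≠ ⊥ := by
      intro h2
      have h3 := LinearMap.finrank_le_finrank_of_injective (LinearMap.ker_eq_bot.1 h2)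
      rw [Module.finrank_self] at h3
      omega
    obtain ⟨v, hv, hv0⟩ := Submodule.exists_mem_ne_zero_of_ne_bot h1
    exact ⟨v, hv0, hv⟩
  obtain ⟨y₀, hy₀, hmax⟩ := hA.exists_isMaxOn hne
    (f := fun y => ‖lam y‖) (by fun_prop)
  set S : Set ℂ := {s : ℂ | y₀ + s • v ∈ A} with hS
  have hcS : Continuous fun s : ℂ => y₀ + s • v := by fun_prop
  have hclS : IsClosed S := hA.isClosed.preimage hcS
  have hopS : IsOpen S := by
    rw [isOpen_iff_mem_nhds]
    intro s hs
    set y := y₀ + s • v with hy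
    have hyA : y ∈ A := hs
    have hly : lam y = lam y₀ := by rw [hy, map_add, map_smul, hv, smul_zero, add_zero]
    by_cases hz : ∀ᶠ σ in 𝓝 (0 : ℂ), e (ln y v σ) = 0
    · have h1 : ∀ᶠ σ in 𝓝 (0 : ℂ), ln y v σ ∈ A := by
        have h2 := (continuous_ln y v).tendsto 0
        rw [ln_zero] at h2
        filter_upwards [hz, h2.eventually (hop y hyA)] with σ h3 h4
        exact h4 h3
      have h2 : Tendsto (fun τ : ℂ => τ - s) (𝓝 s) (𝓝 0) := by
        have h3 : Continuous fun τ : ℂ => τ - s := by fun_prop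
        have h4 := h3.tendsto s
        rwa [sub_self] at h4
      filter_upwards [h2.eventually h1] with τ hτ
      have h3 : ln y v (τ - s) = y₀ + τ • v := by
        rw [ln, hy, add_assoc, ← add_smul]
        congr 2
        ring
      rw [h3] at hτ
      exact hτ
    · exfalso
      have h1 := zero_near (he y hyA) (h0 y hyA) hz (hop y hyA)
      -- a direction which increases `|lam|`
      set w : V := (if lam y = 0 then 1 else lam y) • u with hw
      have hlw : lam w = if lam y = 0 then 1 else lam y := by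
        rw [hw, map_smul, hlam, smul_eq_mul, mul_one]
      have h2 : Tendsto (fun τ : ℝ => y + ((τ : ℝ) : ℂ) • w) (𝓝[>] 0) (𝓝 y) := by
        have h3 : Continuous fun τ : ℝ => y + ((τ : ℝ) : ℂ) • w := by fun_prop
        have h4 := h3.tendsto 0
        simp only [Complex.ofReal_zero, zero_smul, add_zero] at h4
        exact h4.mono_left nhdsWithin_le_nhds
      obtain ⟨τ, ⟨σ, h3, h4⟩, hτ⟩ := ((h2.eventually h1).and self_mem_nhdsWithin).exists
      have hτ0 : 0 < τ := hτ
      have h5 : ln (y + ((τ : ℝ) : ℂ) • w) v σ ∈ A := h4 h3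
      have h6 : ‖lam (ln (y + ((τ : ℝ) : ℂ) • w) v σ)‖ ≤ ‖lam y₀‖ := hmax h5
      have h7 : lam (ln (y + ((τ : ℝ) : ℂ) • w) v σ) = lam y + ((τ : ℝ) : ℂ) * lam w := by
        have e1 : lam (σ • v) = 0 := by rw [map_smul, hv, smul_zero]
        have e2 : lam (((τ : ℝ) : ℂ) • w) = ((τ : ℝ) : ℂ) * lam w := lam.map_smul _ _
        rw [ln, map_add, map_add, e1, e2, add_zero]
      rw [h7, hlw, ← hly] at h6
      by_cases hly0 : lam y = 0
      · rw [if_pos hly0, hly0, zero_add, mul_one, norm_zero, Complex.norm_real] at h6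
        exact hτ0.ne' (norm_le_zero_iff.1 h6)
      · rw [if_neg hly0] at h6
        have h8 : lam y + ((τ : ℝ) : ℂ) * lam y = (((1 + τ : ℝ)) : ℂ) * lam y := by
          push_cast
          ring
        rw [h8, norm_mul, Complex.norm_real, Real.norm_of_nonneg (by positivity)] at h6
        have h9 : 0 < ‖lam y‖ := norm_pos_iff.2 hly0
        nlinarith
  have hne' : S.Nonempty := ⟨0, by
    show y₀ + (0 : ℂ) • v ∈ A
    rw [zero_smul, add_zero]
    exact hy₀⟩
  have huniv : S = univ := IsClopen.eq_univ ⟨hclS, hopS⟩ hne'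
  -- `A` is bounded
  obtain ⟨R, hR⟩ := hA.isBounded.exists_norm_le
  have h1 : ∀ s : ℂ, ‖y₀ + s • v‖ ≤ R := fun s => hR _ (by
    have : s ∈ S := by rw [huniv]; exact mem_univ s
    exact this)
  have hvn : 0 < ‖v‖ := norm_pos_iff.2 hv0
  set s : ℂ := (((R + ‖y₀‖ + 1) / ‖v‖ : ℝ) : ℂ) with hs
  have h2 := h1 s
  have h3 := norm_sub_le (y₀ + s • v) y₀
  rw [add_sub_cancel_left, norm_smul, hs, Complex.norm_real] at h3
  have hR0 : 0 ≤ R := (norm_nonneg _).trans (h1 0)
  rw [Real.norm_of_nonneg (by positivity), div_mul_cancel₀ _ hvn.ne'] at h3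
  rw [hs] at h2
  linarith

/-- **E2**, local form: `t` is locally constant on `{e = 0}`. -/
theorem loc_const [FiniteDimensional ℂ V] (hV : 1 < Module.finrank ℂ V) {e t : V → ℂ} {a : V}
    {r : ℝ} (he : ∀ y ∈ closedBall a r, AnalyticAt ℂ e y)
    (ht : ∀ y ∈ closedBall a r, ContinuousAt t y) {N : Set V} (hN : N.Countable)
    (hS : ∀ y ∈ sphere a r, y ∉ N)
    (hloc : ∀ y ∈ closedBall a r, e y = 0 → y ∉ N → ∀ᶠ z in 𝓝 y, e z = 0 → t z = t y) :
    ∀ y ∈ closedBall a r, e y = 0 → ∀ᶠ z in 𝓝 y, e z = 0 → t z = t y := by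
  have : ProperSpace V := FiniteDimensional.proper ℂ V
  set N' : Set V := {y | y ∈ closedBall a r ∧ e y = 0 ∧ ¬ ∀ᶠ z in 𝓝 y, e z = 0 → t z = t y}
    with hN'
  have hsub : N' ⊆ N := by
    rintro y ⟨h1, h2, h3⟩
    by_contra h4
    exact h3 (hloc y h1 h2 h4)
  have hcl : IsClosed N' := by
    rw [← isOpen_compl_iff, isOpen_iff_mem_nhds]
    intro y hy
    by_cases h1 : y ∈ closedBall a r
    · by_cases h2 : e y = 0
      · have h3 : ∀ᶠ z in 𝓝 y, e z = 0 → t z = t y := by
          by_contra h4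
          exact hy ⟨h1, h2, h4⟩
        filter_upwards [eventually_eventually_nhds.2 h3] with z h4 h5
        apply h5.2.2
        filter_upwards [h4] with w h6 h7
        rw [h6 h7, h4.self_of_nhds h5.2.1]
      · filter_upwards [(he y h1).continuousAt.eventually_ne h2] with z h3 h4
        exact h3 h4.2.1
    · filter_upwards [isClosed_closedBall.isOpen_compl.mem_nhds h1] with z h3 h4
      exact h3 h4.1
  have hcomp : IsCompact N' := (isCompact_closedBall a r).of_isClosed_subset hcl fun y hy => hy.1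
  suffices hemp : N' = ∅ by
    intro y h1 h2
    by_contra h3
    have : y ∈ N' := ⟨h1, h2, h3⟩
    rw [hemp] at this
    exact this
  by_contra hne
  have hne' : N'.Nonempty := nonempty_iff_ne_empty.2 hne
  -- an isolated point
  obtain ⟨y, hyN, hiso⟩ : ∃ y ∈ N', ∀ᶠ z in 𝓝 y, z ∈ N' → z = y := by
    have : Nonempty N' := hne'.to_subtype
    have : CompactSpace N' := isCompact_iff_compactSpace.1 hcomp
    have : Countable N' := (hN.mono hsub).to_subtype
    obtain ⟨y, hy⟩ := nonempty_interior_of_iUnion_of_closed (X := N') (f := fun y : N' => {y})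
      (fun y => isClosed_singleton) (by
        ext z
        simp)
    obtain ⟨z, hz⟩ := hy
    have hzy : z = y := mem_singleton_iff.1 (interior_subset hz)
    subst hzy
    refine ⟨z, z.2, ?_⟩
    have h1 : ({z} : Set N') ∈ 𝓝 z := mem_interior_iff_mem_nhds.1 hz
    rw [nhds_subtype_eq_comap, mem_comap] at h1
    obtain ⟨W, hW, hWs⟩ := h1
    filter_upwards [hW] with w hw hwN
    have h2 : (⟨w, hwN⟩ : N') ∈ ({z} : Set N') := hWs hw
    exact congrArg Subtype.val h2
  have hyb : y ∈ ball a r := by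
    have h1 := hyN.1
    rw [mem_closedBall] at h1
    rw [mem_ball]
    refine lt_of_le_of_ne h1 fun h2 => ?_
    exact hS y h2 (hsub hyN)
  obtain ⟨ρ, hρ, hρb⟩ := Metric.eventually_nhds_iff_ball.1 (hiso.and (isOpen_ball.mem_nhds hyb))
  set κ : ℝ := ρ / 2 with hκ
  have hκ0 : 0 < κ := by positivity
  have hκb : closedBall y κ ⊆ ball y ρ := closedBall_subset_ball (by rw [hκ]; linarith)
  have hin : ∀ z ∈ closedBall y κ, z ∈ closedBall a r := fun z hz =>
    ball_subset_closedBall (hρb z (hκb hz)).2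
  have hlc : ∀ z ∈ closedBall y κ, z ≠ y → e z = 0 → ∀ᶠ w in 𝓝 z, e w = 0 → t w = t z := by
    intro z hz hzy h0
    by_contra h1
    exact hzy ((hρb z (hκb hz)).1 ⟨hin z hz, h0, h1⟩)
  have hclE : IsClosed {z | z ∈ closedBall y κ ∧ e z = 0} := by
    have h1 : ContinuousOn e (closedBall y κ) := fun z hz =>
      (he z (hin z hz)).continuousAt.continuousWithinAt
    exact h1.preimage_isClosed_of_isClosed isClosed_closedBall isClosed_singleton
  have hct : ContinuousOn t (closedBall y κ) := fun z hz =>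
    (ht z (hin z hz)).continuousWithinAt
  -- the values on the sphere
  set S₁ : Set V := {w | w ∈ sphere y κ ∧ e w = 0 ∧ t w ≠ t y} with hS₁
  have hS₁c : IsCompact S₁ := by
    refine (isCompact_sphere y κ).of_isClosed_subset ?_ fun w hw => hw.1
    rw [← isOpen_compl_iff, isOpen_iff_mem_nhds]
    intro w hw
    by_cases h1 : w ∈ sphere y κ
    · have h2 := sphere_subset_closedBall h1
      by_cases h3 : e w = 0
      · have h4 : t w = t y := by
          by_contra h5
          exact hw ⟨h1, h3, h5⟩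
        have h5 : w ≠ y := by
          rintro rfl
          rw [mem_sphere, dist_self] at h1
          exact hκ0.ne h1
        filter_upwards [hlc w h2 h5 h3] with z h6 h7
        exact h7.2.2 ((h6 h7.2.1).trans h4)
      · filter_upwards [(he w (hin w h2)).continuousAt.eventually_ne h3] with z h4 h5
        exact h4 h5.2.1
    · filter_upwards [isClosed_sphere.isOpen_compl.mem_nhds h1] with z h3 h4
      exact h3 h4.1
  have hTc : IsClosed (t '' S₁) :=
    (hS₁c.image_of_continuousOn (hct.mono fun w hw => sphere_subset_closedBall hw.1)).isClosed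
  have hty : t y ∉ t '' S₁ := by
    rintro ⟨w, hw, h1⟩
    exact hw.2.2 h1
  apply hyN.2.2
  filter_upwards [(ht y hyN.1).eventually (hTc.isOpen_compl.mem_nhds hty), ball_mem_nhds y hκ0]
    with z h1 h2 h3
  by_contra h4
  -- the piece `{e = 0, t = t z}`
  set A : Set V := {w | w ∈ closedBall y κ ∧ e w = 0 ∧ t w = t z} with hAdef
  have hAc : IsCompact A := by
    refine (isCompact_closedBall y κ).of_isClosed_subset ?_ fun w hw => hw.1
    have h5 : IsClosed (closedBall y κ ∩ t ⁻¹' {t z}) :=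
      hct.preimage_isClosed_of_isClosed isClosed_closedBall isClosed_singleton
    have h6 : A = {z | z ∈ closedBall y κ ∧ e z = 0} ∩ (closedBall y κ ∩ t ⁻¹' {t z}) := by
      ext w
      constructor
      · rintro ⟨h7, h8, h9⟩
        exact ⟨⟨h7, h8⟩, h7, h9⟩
      · rintro ⟨⟨h7, h8⟩, -, h9⟩
        exact ⟨h7, h8, h9⟩
    rw [h6]
    exact hclE.inter h5
  have hAe : A = ∅ := by
    refine no_piece hV hAc (fun w hw => he w (hin w hw.1)) (fun w hw => hw.2.1) fun w hw => ?_
    have h5 : w ≠ y := by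
      rintro rfl
      exact h4 hw.2.2.symm
    have h6 : w ∈ ball y κ := by
      have h7 := hw.1
      rw [mem_closedBall] at h7
      rw [mem_ball]
      refine lt_of_le_of_ne h7 fun h8 => h1 ⟨w, ⟨h8, hw.2.1, ?_⟩, hw.2.2⟩
      rw [hw.2.2]
      exact h4
    filter_upwards [hlc w hw.1 h5 hw.2.1, isOpen_ball.mem_nhds h6] with x h7 h8 h9
    exact ⟨ball_subset_closedBall h8, h9, (h7 h9).trans hw.2.2⟩
  have h5 : z ∈ A := ⟨ball_subset_closedBall h2, h3, rfl⟩
  rw [hAe] at h5
  exact h5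

/-- **E2**: the values at the inner points are taken on the sphere. -/
theorem on_sphere [FiniteDimensional ℂ V] (hV : 1 < Module.finrank ℂ V) {e t : V → ℂ} {a : V}
    {r : ℝ} (he : ∀ y ∈ closedBall a r, AnalyticAt ℂ e y)
    (ht : ∀ y ∈ closedBall a r, ContinuousAt t y) {N : Set V} (hN : N.Countable)
    (hS : ∀ y ∈ sphere a r, y ∉ N)
    (hloc : ∀ y ∈ closedBall a r, e y = 0 → y ∉ N → ∀ᶠ z in 𝓝 y, e z = 0 → t z = t y) :
    ∀ x ∈ ball a r, e x = 0 → ∃ y ∈ sphere a r, e y = 0 ∧ t y = t x := by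
  have : ProperSpace V := FiniteDimensional.proper ℂ V
  have hlc := loc_const hV he ht hN hS hloc
  intro x hx h0
  by_contra hcon
  push Not at hcon
  set A : Set V := {w | w ∈ closedBall a r ∧ e w = 0 ∧ t w = t x} with hAdef
  have hAc : IsCompact A := by
    refine (isCompact_closedBall a r).of_isClosed_subset ?_ fun w hw => hw.1
    have h1 : ContinuousOn e (closedBall a r) := fun z hz => (he z hz).continuousAt.continuousWithinAt
    have h2 : ContinuousOn t (closedBall a r) := fun z hz => (ht z hz).continuousWithinAt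
    have h3 := h1.preimage_isClosed_of_isClosed isClosed_closedBall (isClosed_singleton (x := (0 : ℂ)))
    have h4 := h2.preimage_isClosed_of_isClosed isClosed_closedBall (isClosed_singleton (x := t x))
    have h6 : A = (closedBall a r ∩ e ⁻¹' {0}) ∩ (closedBall a r ∩ t ⁻¹' {t x}) := by
      ext w
      constructor
      · rintro ⟨h7, h8, h9⟩
        exact ⟨⟨h7, h8⟩, h7, h9⟩
      · rintro ⟨⟨h7, h8⟩, -, h9⟩
        exact ⟨h7, h8, h9⟩
    rw [h6]
    exact h3.inter h4
  have hAe : A = ∅ := by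
    refine no_piece hV hAc (fun w hw => he w hw.1) (fun w hw => hw.2.1) fun w hw => ?_
    have h6 : w ∈ ball a r := by
      have h7 := hw.1
      rw [mem_closedBall] at h7
      rw [mem_ball]
      exact lt_of_le_of_ne h7 fun h8 => hcon w h8 hw.2.1 hw.2.2
    filter_upwards [hlc w hw.1 hw.2.1, isOpen_ball.mem_nhds h6] with z h7 h8 h9
    exact ⟨ball_subset_closedBall h8, h9, (h7 h9).trans hw.2.2⟩
  have h5 : x ∈ A := ⟨ball_subset_closedBall hx, h0, rfl⟩
  rw [hAe] at h5
  exact h5

end Vale.Agent.P281.H864.TM
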