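import Vale.Agent.P281.H180.TM.ESpec
import Vale.Agent.P281.H864.TM.Plane

/-!
# P281, project T-M, T0 (helper864): E1 and E2 in the letters of ESpec
-/

open Set Filter Metric Vale.Agent.P281 Vale.Agent.P281.H64
open Vale.Agent.P281.H180.TM (CompactStmt SphereStmt)
open scoped Topology

noncomputable section

namespace Vale.Agent.P281.H864.TM

theorem one_lt_two_cm : 1 < Module.finrank ℂ (Cm 2) := by
  rw [Module.finrank_fin_fun]
  norm_num

/-- **E1** -/
theorem compact : CompactStmt := by
  intro G W Z hW hG hZ hZW hZG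
  refine no_piece one_lt_two_cm (e := G) hZ (fun y hy => hG y (hZW hy))
    (fun y hy => (hZG y (hZW hy)).1 hy) fun y hy => ?_
  filter_upwards [hW.mem_nhds (hZW hy)] with z hz h0
  exact (hZG z hz).2 h0

/-- **E2** -/
theorem sphere : SphereStmt := by
  intro G t a ρ hρ han hcnt z hz h0
  by_contra hcon
  push Not at hcon
  have hGc : ContinuousOn G (closedBall a ρ) := fun w hw =>
    (han w hw).1.continuousAt.continuousWithinAt
  have htc : ContinuousOn t (closedBall a ρ) := fun w hw =>
    (han w hw).2.continuousAt.continuousWithinAt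
  have hE : IsClosed (closedBall a ρ ∩ G ⁻¹' {0}) :=
    hGc.preimage_isClosed_of_isClosed isClosed_closedBall isClosed_singleton
  have hEc : IsCompact (closedBall a ρ ∩ G ⁻¹' {0}) :=
    (isCompact_closedBall a ρ).of_isClosed_subset hE inter_subset_left
  -- the values on the sphere
  have hSc : IsCompact (Metric.sphere a ρ ∩ G ⁻¹' {0}) := by
    refine (isCompact_sphere a ρ).of_isClosed_subset ?_ inter_subset_left
    exact (hGc.mono sphere_subset_closedBall).preimage_isClosed_of_isClosed isClosed_sphere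
      isClosed_singleton
  have hTc : IsClosed (t '' (Metric.sphere a ρ ∩ G ⁻¹' {0})) :=
    (hSc.image_of_continuousOn (htc.mono fun w hw => sphere_subset_closedBall hw.1)).isClosed
  have hzT : t z ∉ t '' (Metric.sphere a ρ ∩ G ⁻¹' {0}) := by
    rintro ⟨w, ⟨hw, hw0⟩, hwt⟩
    exact hcon w hw hw0 hwt
  obtain ⟨ε, hε, hεT⟩ := Metric.mem_nhds_iff.1 (hTc.isOpen_compl.mem_nhds hzT)
  -- a radius which is not a value
  have hcd : ((fun w => dist (t w) (t z)) '' {w | w ∈ closedBall a ρ ∧ G w = 0}).Countable := by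
    have h1 : (fun w => dist (t w) (t z)) '' {w | w ∈ closedBall a ρ ∧ G w = 0} =
        (fun s => dist s (t z)) '' (t '' {w | w ∈ closedBall a ρ ∧ G w = 0}) := by
      rw [image_image]
    rw [h1]
    exact hcnt.image _
  obtain ⟨δ, hδ, hδN⟩ : ∃ δ ∈ Ioo 0 ε,
      δ ∉ (fun w => dist (t w) (t z)) '' {w | w ∈ closedBall a ρ ∧ G w = 0} := by
    by_contra h1
    push Not at h1
    have h2 := (hcd.mono h1).measure_zero MeasureTheory.volume
    rw [Real.volume_Ioo, sub_zero, ENNReal.ofReal_eq_zero] at h2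
    linarith
  set A : Set (Cm 2) := (closedBall a ρ ∩ G ⁻¹' {0}) ∩ (closedBall a ρ ∩ t ⁻¹' closedBall (t z) δ)
    with hA
  have hAc : IsCompact A := by
    have h1 : IsClosed (closedBall a ρ ∩ t ⁻¹' closedBall (t z) δ) :=
      htc.preimage_isClosed_of_isClosed isClosed_closedBall isClosed_closedBall
    exact hEc.of_isClosed_subset (hE.inter h1) inter_subset_left
  have hAe : A = ∅ := by
    refine no_piece one_lt_two_cm (e := G) hAc (fun y hy => (han y hy.1.1).1)
      (fun y hy => hy.1.2) fun y hy => ?_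
    obtain ⟨⟨hy1, hy2⟩, -, hy3⟩ := hy
    have h1 : dist (t y) (t z) < δ := by
      refine lt_of_le_of_ne hy3 fun h2 => hδN ⟨y, ⟨hy1, hy2⟩, h2⟩
    have h2 : y ∈ ball a ρ := by
      rw [mem_closedBall] at hy1
      rw [mem_ball]
      refine lt_of_le_of_ne hy1 fun h3 => ?_
      have h4 : t y ∈ t '' (Metric.sphere a ρ ∩ G ⁻¹' {0}) := ⟨y, ⟨h3, hy2⟩, rfl⟩
      exact hεT (h1.trans hδ.2) h4
    have h3 : ∀ᶠ w in 𝓝 y, dist (t w) (t z) < δ :=
      ((han y (ball_subset_closedBall h2)).2.continuousAt.dist continuousAt_const).eventually_lt_const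
        h1
    filter_upwards [h3, isOpen_ball.mem_nhds h2] with w h4 h5 h6
    exact ⟨⟨ball_subset_closedBall h5, h6⟩, ball_subset_closedBall h5, h4.le⟩
  have h1 : z ∈ A := ⟨⟨hz, h0⟩, hz, by
    show t z ∈ closedBall (t z) δ
    exact mem_closedBall_self hδ.1.le⟩
  rw [hAe] at h1
  exact h1

end Vale.Agent.P281.H864.TM
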